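import Mathlib

/-!
# Row 286, BOX-A, leaf BL2 (helper268): the passage `p = 2 → p > 2` of PE Lemma 2.3 (abstract, no geometry)

`bl_moment_of_var`: if `Var φ(A) ≤ E φ'(A)² J` for all `φ ∈ C²`, `A`, `J` bounded, `J ≥ 0`, `E A = 0`, then
`(E |A|^p)^(2/p) ≤ (1 + p²/3) (E J^(p/2))^(2/p)` for all real `p ≥ 2`.      (statement of helper224's skeleton)
-/

set_option autoImplicit false

open MeasureTheory Set Filter Topology ProbabilityTheory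
open scoped ENNReal NNReal

namespace Claimed.Agent.PL

/-- numeric closure of the recursion: `t^α ≤ d^α + K t^(α-1)` gives `t ≤ d + K` -/
theorem blm_num {X Y d K α : ℝ} (hα : 1 < α) (hX : 0 ≤ X) (hY : 0 ≤ Y) (hd : 0 < d) (hK : 0 ≤ K)
    (h : X ≤ d ^ α * Y + K * (X ^ (1 - 1 / α) * Y ^ (1 / α))) : X ≤ (d + K) ^ α * Y := by
  have hα0 : 0 < α := by linarith
  have hia : 0 < 1 / α := by positivity
  rcases hY.eq_or_lt with rfl | hYp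
  · rw [Real.zero_rpow hia.ne'] at h
    simpa using h
  rcases hX.eq_or_lt with rfl | hXp
  · positivity
  obtain ⟨u, hu⟩ : ∃ u, u = X ^ (1 / α) := ⟨_, rfl⟩
  obtain ⟨w, hw⟩ : ∃ w, w = Y ^ (1 / α) := ⟨_, rfl⟩
  have hup : 0 < u := hu ▸ Real.rpow_pos_of_pos hXp _
  have hwp : 0 < w := hw ▸ Real.rpow_pos_of_pos hYp _
  have hXu : X = u ^ α := by
    rw [hu, ← Real.rpow_mul hX, one_div, inv_mul_cancel₀ hα0.ne', Real.rpow_one]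
  have hYw : Y = w ^ α := by
    rw [hw, ← Real.rpow_mul hY, one_div, inv_mul_cancel₀ hα0.ne', Real.rpow_one]
  have hX1 : X ^ (1 - 1 / α) = u ^ (α - 1) := by
    rw [hu, ← Real.rpow_mul hX]
    congr 1
    field_simp
  suffices hs : u ≤ (d + K) * w by
    rw [hXu, hYw, ← Real.mul_rpow (by positivity) hwp.le]
    exact Real.rpow_le_rpow hup.le hs hα0.le
  by_contra hc
  push Not at hc
  have h1 : u ^ α = u ^ (α - 1) * u := by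
    rw [← Real.rpow_add_one hup.ne']
    congr 1
    ring
  have hdw : 0 < d * w := by positivity
  have h2 : d ^ α * w ^ α = (d * w) ^ (α - 1) * (d * w) := by
    rw [← Real.mul_rpow hd.le hwp.le, ← Real.rpow_add_one hdw.ne']
    congr 1
    ring
  have hle : d * w ≤ u := by nlinarith
  have h3 : (d * w) ^ (α - 1) ≤ u ^ (α - 1) := Real.rpow_le_rpow hdw.le hle (by linarith)
  have h4 : 0 < (d * w) ^ (α - 1) := Real.rpow_pos_of_pos hdw _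
  rw [hX1, ← hw] at h
  rw [hYw, h2] at h
  rw [hXu, h1] at h
  have h5 : 0 < u ^ (α - 1) * (u - (d + K) * w) := mul_pos (lt_of_lt_of_le h4 h3) (by linarith)
  have h6 : 0 ≤ (u ^ (α - 1) - (d * w) ^ (α - 1)) * (d * w) := mul_nonneg (by linarith) hdw.le
  nlinarith

theorem blm_sq_rpow (a r : ℝ) : (a ^ 2) ^ r = |a| ^ (2 * r) := by
  rw [← sq_abs, ← Real.rpow_natCast, ← Real.rpow_mul (abs_nonneg a)]
  norm_num

section prob

variable {Ω : Type*} [MeasurableSpace Ω] {μ : Measure Ω} [IsProbabilityMeasure μ]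

theorem blm_int {f : Ω → ℝ} (hf : Measurable f) {C : ℝ} (hb : ∀ ω, |f ω| ≤ C) : Integrable f μ :=
  Integrable.of_bound hf.aestronglyMeasurable C (Eventually.of_forall fun ω => by simpa using hb ω)

theorem blm_int_rpow {f : Ω → ℝ} (hf : Measurable f) {C : ℝ} (h0 : ∀ ω, 0 ≤ f ω) (hb : ∀ ω, f ω ≤ C) {r : ℝ} (hr : 0 ≤ r) :
    Integrable (fun ω => f ω ^ r) μ :=
  blm_int (hf.pow_const r) (C := C ^ r) (fun ω => by
    rw [abs_of_nonneg (Real.rpow_nonneg (h0 ω) _)]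
    exact Real.rpow_le_rpow (h0 ω) (hb ω) hr)

/-- Jensen for powers -/
theorem blm_jensen {f : Ω → ℝ} (hf : Measurable f) {C : ℝ} (h0 : ∀ ω, 0 ≤ f ω) (hb : ∀ ω, f ω ≤ C) {r : ℝ} (hr : 1 ≤ r) :
    (∫ ω, f ω ∂μ) ^ r ≤ ∫ ω, f ω ^ r ∂μ := by
  have hi : Integrable f μ := blm_int hf (fun ω => by rw [abs_of_nonneg (h0 ω)]; exact hb ω)
  have hi2 : Integrable (fun ω => f ω ^ r) μ := blm_int_rpow hf h0 hb (by linarith)
  exact (convexOn_rpow hr).map_integral_le (Real.continuous_rpow_const (by linarith)).continuousOn isClosed_Ici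
    (Eventually.of_forall h0) hi hi2

/-- removal of the regularisation -/
theorem blm_lim {A g : Ω → ℝ} {M G : ℝ} (hA : Measurable A) (hg : Measurable g) (hAb : ∀ ω, |A ω| ≤ M) (hgb : ∀ ω, |g ω| ≤ G)
    {r : ℝ} (hr : 0 ≤ r) :
    Tendsto (fun d : ℝ => ∫ ω, (A ω ^ 2 + d ^ 2) ^ r * g ω ∂μ) (𝓝 0) (𝓝 (∫ ω, (A ω ^ 2) ^ r * g ω ∂μ)) := by
  refine tendsto_integral_filter_of_dominated_convergence (fun _ => (M ^ 2 + 1) ^ r * G) ?_ ?_ (integrable_const _) ?_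
  · exact Eventually.of_forall fun d => ((((hA.pow_const 2).add_const _).pow_const r).mul hg).aestronglyMeasurable
  · have hd1 : ∀ᶠ d : ℝ in 𝓝 0, |d| < 1 := by
      have := (continuous_abs.tendsto (0 : ℝ)).eventually (gt_mem_nhds (by simp : |(0 : ℝ)| < 1))
      exact this
    filter_upwards [hd1] with d hd
    refine Eventually.of_forall fun ω => ?_
    rw [Real.norm_eq_abs, abs_mul, abs_of_nonneg (Real.rpow_nonneg (by positivity) _)]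
    refine mul_le_mul (Real.rpow_le_rpow (by positivity) ?_ hr) (hgb ω) (abs_nonneg _) (Real.rpow_nonneg (by positivity) _)
    have h1 : A ω ^ 2 ≤ M ^ 2 := by
      rw [← sq_abs]
      exact pow_le_pow_left₀ (abs_nonneg _) (hAb ω) 2
    have h2 : d ^ 2 ≤ 1 := by
      rw [← sq_abs]
      nlinarith [abs_nonneg d]
    linarith
  · refine Eventually.of_forall fun ω => ?_
    have hc : Continuous fun d : ℝ => (A ω ^ 2 + d ^ 2) ^ r * g ω :=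
      ((continuous_const.add (continuous_pow 2)).rpow_const (fun _ => Or.inr hr)).mul continuous_const
    simpa using hc.tendsto 0


/-- the regularised power -/
theorem blm_phi_contDiff {n : WithTop ℕ∞} (q d : ℝ) (hd : d ≠ 0) : ContDiff ℝ n (fun s : ℝ => (s ^ 2 + d ^ 2) ^ q) := by
  refine ContDiff.rpow_const_of_ne (by fun_prop) fun s => ?_
  have : 0 < d ^ 2 := by positivity
  nlinarith [sq_nonneg s]

theorem blm_phi_deriv (q d : ℝ) (hd : d ≠ 0) (s : ℝ) :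
    deriv (fun s : ℝ => (s ^ 2 + d ^ 2) ^ q) s = 2 * s * q * (s ^ 2 + d ^ 2) ^ (q - 1) := by
  have h0 : s ^ 2 + d ^ 2 ≠ 0 := by
    have : 0 < d ^ 2 := by positivity
    nlinarith [sq_nonneg s]
  have h1 : HasDerivAt (fun s : ℝ => s ^ 2 + d ^ 2) (2 * s) s := by
    simpa using (hasDerivAt_pow 2 s).add_const (d ^ 2)
  exact (h1.rpow_const (Or.inl h0)).deriv

variable {A J : Ω → ℝ} {M : ℝ} {n : WithTop ℕ∞}

/-- the regularised inequality -/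
theorem blm_key_reg (hA : Measurable A) (hJ : Measurable J) (hJ0 : ∀ ω, 0 ≤ J ω) (hAb : ∀ ω, |A ω| ≤ M) (hJb : ∀ ω, J ω ≤ M)
    (hvar : ∀ φ : ℝ → ℝ, ContDiff ℝ n φ → Var[fun ω => φ (A ω); μ] ≤ ∫ ω, (deriv φ (A ω)) ^ 2 * J ω ∂μ)
    {p : ℝ} (hp : 2 < p) (d : ℝ) (hd : d ≠ 0) :
    (∫ ω, (A ω ^ 2 + d ^ 2) ^ (p / 2) * 1 ∂μ) - (∫ ω, (A ω ^ 2 + d ^ 2) ^ (p / 4) * 1 ∂μ) ^ 2
      ≤ p ^ 2 / 4 * ∫ ω, (A ω ^ 2 + d ^ 2) ^ (p / 2 - 1) * J ω ∂μ := by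
  have hpos : ∀ ω, 0 < A ω ^ 2 + d ^ 2 := fun ω => by
    have : 0 < d ^ 2 := by positivity
    nlinarith [sq_nonneg (A ω)]
  have hle : ∀ ω, A ω ^ 2 + d ^ 2 ≤ M ^ 2 + d ^ 2 := fun ω => by
    have h1 : A ω ^ 2 ≤ M ^ 2 := by
      rw [← sq_abs]
      exact pow_le_pow_left₀ (abs_nonneg _) (hAb ω) 2
    linarith
  have hm : Measurable fun ω => A ω ^ 2 + d ^ 2 := (hA.pow_const 2).add_const _
  have hv := hvar _ (blm_phi_contDiff (p / 4) d hd)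
  have hmem : MemLp (fun ω => (A ω ^ 2 + d ^ 2) ^ (p / 4)) 2 μ :=
    MemLp.of_bound (hm.pow_const _).aestronglyMeasurable ((M ^ 2 + d ^ 2) ^ (p / 4)) (Eventually.of_forall fun ω => by
      rw [Real.norm_eq_abs, abs_of_nonneg (Real.rpow_nonneg (hpos ω).le _)]
      exact Real.rpow_le_rpow (hpos ω).le (hle ω) (by linarith))
  rw [variance_eq_sub hmem] at hv
  have e1 : ∫ ω, ((fun ω => (A ω ^ 2 + d ^ 2) ^ (p / 4)) ^ 2) ω ∂μ = ∫ ω, (A ω ^ 2 + d ^ 2) ^ (p / 2) * 1 ∂μ := by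
    refine integral_congr_ae (Eventually.of_forall fun ω => ?_)
    simp only [Pi.pow_apply, mul_one]
    rw [← Real.rpow_natCast, ← Real.rpow_mul (hpos ω).le]
    congr 1
    norm_num
    ring
  have e2 : ∫ ω, (A ω ^ 2 + d ^ 2) ^ (p / 4) ∂μ = ∫ ω, (A ω ^ 2 + d ^ 2) ^ (p / 4) * 1 ∂μ := by simp
  rw [e1, e2] at hv
  refine hv.trans ?_
  rw [← integral_const_mul]
  refine integral_mono_of_nonneg (Eventually.of_forall fun ω => mul_nonneg (sq_nonneg _) (hJ0 ω)) ?_ (Eventually.of_forall fun ω => ?_)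
  · refine (blm_int (f := fun ω => (A ω ^ 2 + d ^ 2) ^ (p / 2 - 1) * J ω) (C := (M ^ 2 + d ^ 2) ^ (p / 2 - 1) * M)
      ((hm.pow_const _).mul hJ) fun ω => ?_).const_mul _
    rw [abs_mul, abs_of_nonneg (Real.rpow_nonneg (hpos ω).le _), abs_of_nonneg (hJ0 ω)]
    exact mul_le_mul (Real.rpow_le_rpow (hpos ω).le (hle ω) (by linarith)) (hJb ω) (hJ0 ω) (Real.rpow_nonneg (by positivity) _)
  · show (deriv (fun s : ℝ => (s ^ 2 + d ^ 2) ^ (p / 4)) (A ω)) ^ 2 * J ω ≤ p ^ 2 / 4 * ((A ω ^ 2 + d ^ 2) ^ (p / 2 - 1) * J ω)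
    rw [blm_phi_deriv _ _ hd]
    obtain ⟨b, hb⟩ : ∃ b, b = A ω ^ 2 + d ^ 2 := ⟨_, rfl⟩
    have hbp : 0 < b := hb ▸ hpos ω
    rw [← hb]
    have e3 : b ^ (p / 2 - 1) = b * (b ^ (p / 4 - 1)) ^ 2 := by
      rw [← Real.rpow_natCast (b ^ (p / 4 - 1)), ← Real.rpow_mul hbp.le]
      nth_rewrite 2 [← Real.rpow_one b]
      rw [← Real.rpow_add hbp]
      congr 1
      push_cast
      ring
    rw [e3]
    have h5 : A ω ^ 2 ≤ b := by rw [hb]; nlinarith [sq_nonneg d]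
    have h6 : 0 ≤ (b ^ (p / 4 - 1)) ^ 2 * J ω * (p ^ 2 / 4) := by
      have := hJ0 ω
      positivity
    nlinarith [mul_le_mul_of_nonneg_right h5 h6]

/-- **the key inequality** `E|A|^p ≤ (E|A|^(p/2))² + (p²/4) E |A|^(p-2) J` -/
theorem blm_key (hA : Measurable A) (hJ : Measurable J) (hJ0 : ∀ ω, 0 ≤ J ω) (hAb : ∀ ω, |A ω| ≤ M) (hJb : ∀ ω, J ω ≤ M)
    (hvar : ∀ φ : ℝ → ℝ, ContDiff ℝ n φ → Var[fun ω => φ (A ω); μ] ≤ ∫ ω, (deriv φ (A ω)) ^ 2 * J ω ∂μ)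
    {p : ℝ} (hp : 2 < p) :
    ∫ ω, |A ω| ^ p ∂μ ≤ (∫ ω, |A ω| ^ (p / 2) ∂μ) ^ 2 + p ^ 2 / 4 * ∫ ω, |A ω| ^ (p - 2) * J ω ∂μ := by
  have hJb' : ∀ ω, |J ω| ≤ M := fun ω => by rw [abs_of_nonneg (hJ0 ω)]; exact hJb ω
  have h1b : ∀ ω : Ω, |(1 : ℝ)| ≤ 1 := fun _ => by simp
  have t1 := blm_lim (μ := μ) (g := fun _ => (1 : ℝ)) hA measurable_const hAb h1b (r := p / 2) (by linarith)
  have t2 := blm_lim (μ := μ) (g := fun _ => (1 : ℝ)) hA measurable_const hAb h1b (r := p / 4) (by linarith)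
  have t3 := blm_lim (μ := μ) hA hJ hAb hJb' (r := p / 2 - 1) (by linarith)
  have hlim := le_of_tendsto_of_tendsto (b := 𝓝[≠] (0 : ℝ)) ((t1.sub (t2.pow 2)).mono_left nhdsWithin_le_nhds)
    ((t3.const_mul (p ^ 2 / 4)).mono_left nhdsWithin_le_nhds) (by
      filter_upwards [self_mem_nhdsWithin] with d hd
      exact blm_key_reg hA hJ hJ0 hAb hJb hvar hp d hd)
  simp only [blm_sq_rpow, mul_one] at hlim
  have e1 : 2 * (p / 2) = p := by ring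
  have e2 : 2 * (p / 4) = p / 2 := by ring
  have e3 : 2 * (p / 2 - 1) = p - 2 := by ring
  rw [e1, e2, e3] at hlim
  linarith

/-- Hölder -/
theorem blm_holder (hA : Measurable A) (hJ : Measurable J) (hJ0 : ∀ ω, 0 ≤ J ω) (hAb : ∀ ω, |A ω| ≤ M) (hJb : ∀ ω, J ω ≤ M)
    {p : ℝ} (hp : 2 < p) :
    ∫ ω, |A ω| ^ (p - 2) * J ω ∂μ ≤ (∫ ω, |A ω| ^ p ∂μ) ^ (1 - 1 / (p / 2)) * (∫ ω, J ω ^ (p / 2) ∂μ) ^ (1 / (p / 2)) := by
  have hp0 : 0 < p := by linarith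
  have hp2 : 0 < p - 2 := by linarith
  have hc : (p / (p - 2)).HolderConjugate (p / 2) := by
    rw [Real.holderConjugate_iff]
    refine ⟨by rw [lt_div_iff₀ hp2]; linarith, ?_⟩
    field_simp
    ring
  have hm1 : MemLp (fun ω => |A ω| ^ (p - 2)) (ENNReal.ofReal (p / (p - 2))) μ :=
    MemLp.of_bound (hA.abs.pow_const _).aestronglyMeasurable (M ^ (p - 2)) (Eventually.of_forall fun ω => by
      rw [Real.norm_eq_abs, abs_of_nonneg (Real.rpow_nonneg (abs_nonneg _) _)]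
      exact Real.rpow_le_rpow (abs_nonneg _) (hAb ω) hp2.le)
  have hm2 : MemLp J (ENNReal.ofReal (p / 2)) μ :=
    MemLp.of_bound hJ.aestronglyMeasurable M (Eventually.of_forall fun ω => by
      rw [Real.norm_eq_abs, abs_of_nonneg (hJ0 ω)]
      exact hJb ω)
  have h := integral_mul_le_Lp_mul_Lq_of_nonneg hc (Eventually.of_forall fun ω => Real.rpow_nonneg (abs_nonneg (A ω)) (p - 2))
    (Eventually.of_forall hJ0) hm1 hm2
  have e1 : ∀ ω, (|A ω| ^ (p - 2)) ^ (p / (p - 2)) = |A ω| ^ p := fun ω => by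
    rw [← Real.rpow_mul (abs_nonneg _)]
    congr 1
    field_simp
  have e2 : 1 / (p / (p - 2)) = 1 - 1 / (p / 2) := by
    field_simp
  simp only [e1, e2] at h
  exact h

/-- one step of the ladder -/
theorem blm_step (hA : Measurable A) (hJ : Measurable J) (hJ0 : ∀ ω, 0 ≤ J ω) (hAb : ∀ ω, |A ω| ≤ M) (hJb : ∀ ω, J ω ≤ M)
    (hvar : ∀ φ : ℝ → ℝ, ContDiff ℝ n φ → Var[fun ω => φ (A ω); μ] ≤ ∫ ω, (deriv φ (A ω)) ^ 2 * J ω ∂μ)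
    {p d : ℝ} (hp : 2 < p) (hd : 0 < d) (hprev : (∫ ω, |A ω| ^ (p / 2) ∂μ) ^ 2 ≤ d ^ (p / 2) * ∫ ω, J ω ^ (p / 2) ∂μ) :
    ∫ ω, |A ω| ^ p ∂μ ≤ (d + p ^ 2 / 4) ^ (p / 2) * ∫ ω, J ω ^ (p / 2) ∂μ := by
  refine blm_num (by linarith) (integral_nonneg fun ω => Real.rpow_nonneg (abs_nonneg _) _)
    (integral_nonneg fun ω => Real.rpow_nonneg (hJ0 ω) _) hd (by positivity) ?_
  have h1 := blm_key hA hJ hJ0 hAb hJb hvar hp
  have h2 := blm_holder (μ := μ) hA hJ hJ0 hAb hJb hp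
  have h3 : p ^ 2 / 4 * ∫ ω, |A ω| ^ (p - 2) * J ω ∂μ
      ≤ p ^ 2 / 4 * ((∫ ω, |A ω| ^ p ∂μ) ^ (1 - 1 / (p / 2)) * (∫ ω, J ω ^ (p / 2) ∂μ) ^ (1 / (p / 2))) :=
    mul_le_mul_of_nonneg_left h2 (by positivity)
  linarith

/-- `p = 2` -/
theorem blm_two (hA : Measurable A) (hAb : ∀ ω, |A ω| ≤ M) (hA0 : ∫ ω, A ω ∂μ = 0)
    (hvar : ∀ φ : ℝ → ℝ, ContDiff ℝ n φ → Var[fun ω => φ (A ω); μ] ≤ ∫ ω, (deriv φ (A ω)) ^ 2 * J ω ∂μ) :
    ∫ ω, |A ω| ^ (2 : ℝ) ∂μ ≤ ∫ ω, J ω ∂μ := by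
  have hv := hvar id contDiff_id
  have hmem : MemLp (fun ω => id (A ω)) 2 μ :=
    MemLp.of_bound hA.aestronglyMeasurable M (Eventually.of_forall fun ω => by simpa using hAb ω)
  rw [variance_eq_sub hmem] at hv
  simp only [id, deriv_id, one_pow, one_mul, hA0, Pi.pow_apply] at hv
  simp only [Real.rpow_two, sq_abs]
  simpa using hv

/-- the previous rung, `2 < p ≤ 4` -/
theorem blm_low (hA : Measurable A) (hJ : Measurable J) (hJ0 : ∀ ω, 0 ≤ J ω) (hAb : ∀ ω, |A ω| ≤ M) (hJb : ∀ ω, J ω ≤ M)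
    (hA0 : ∫ ω, A ω ∂μ = 0)
    (hvar : ∀ φ : ℝ → ℝ, ContDiff ℝ n φ → Var[fun ω => φ (A ω); μ] ≤ ∫ ω, (deriv φ (A ω)) ^ 2 * J ω ∂μ)
    {p : ℝ} (hp : 2 < p) (hp4 : p ≤ 4) :
    (∫ ω, |A ω| ^ (p / 2) ∂μ) ^ 2 ≤ 1 ^ (p / 2) * ∫ ω, J ω ^ (p / 2) ∂μ := by
  have hp0 : 0 < p := by linarith
  have j1 := blm_jensen (μ := μ) (f := fun ω => |A ω| ^ (p / 2)) (hA.abs.pow_const _) (C := M ^ (p / 2))
    (fun ω => Real.rpow_nonneg (abs_nonneg _) _) (fun ω => Real.rpow_le_rpow (abs_nonneg _) (hAb ω) (by linarith))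
    (r := 4 / p) (by rw [le_div_iff₀ hp0]; linarith)
  have e : ∀ ω, (|A ω| ^ (p / 2)) ^ (4 / p) = |A ω| ^ (2 : ℝ) := fun ω => by
    rw [← Real.rpow_mul (abs_nonneg _)]
    congr 1
    field_simp
    norm_num
  simp only [e] at j1
  have j2 := blm_two (μ := μ) (J := J) hA hAb hA0 hvar
  have j3 := blm_jensen (μ := μ) hJ hJ0 hJb (r := p / 2) (by linarith)
  have hI0 : 0 ≤ ∫ ω, |A ω| ^ (p / 2) ∂μ := integral_nonneg fun ω => Real.rpow_nonneg (abs_nonneg _) _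
  have e2 : (∫ ω, |A ω| ^ (p / 2) ∂μ) ^ 2 = ((∫ ω, |A ω| ^ (p / 2) ∂μ) ^ (4 / p)) ^ (p / 2) := by
    rw [← Real.rpow_mul hI0]
    have : 4 / p * (p / 2) = 2 := by field_simp; norm_num
    rw [this, Real.rpow_two]
  rw [e2, Real.one_rpow, one_mul]
  exact (Real.rpow_le_rpow (Real.rpow_nonneg hI0 _) (j1.trans j2) (by linarith)).trans j3

/-- the previous rung, `4 < p` -/
theorem blm_high (hJ : Measurable J) (hJ0 : ∀ ω, 0 ≤ J ω) (hJb : ∀ ω, J ω ≤ M) {p c : ℝ} (hp : 4 < p) (hc : 0 < c)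
    (hprev : ∫ ω, |A ω| ^ (p / 2) ∂μ ≤ c ^ (p / 2 / 2) * ∫ ω, J ω ^ (p / 2 / 2) ∂μ) :
    (∫ ω, |A ω| ^ (p / 2) ∂μ) ^ 2 ≤ c ^ (p / 2) * ∫ ω, J ω ^ (p / 2) ∂μ := by
  have j := blm_jensen (μ := μ) (f := fun ω => J ω ^ (p / 2 / 2)) (hJ.pow_const _) (C := M ^ (p / 2 / 2))
    (fun ω => Real.rpow_nonneg (hJ0 ω) _) (fun ω => Real.rpow_le_rpow (hJ0 ω) (hJb ω) (by linarith)) (r := 2) (by norm_num)
  have e : ∀ ω, (J ω ^ (p / 2 / 2)) ^ (2 : ℝ) = J ω ^ (p / 2) := fun ω => by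
    rw [← Real.rpow_mul (hJ0 ω)]
    congr 1
    ring
  simp only [e, Real.rpow_two] at j
  have hI0 : 0 ≤ ∫ ω, |A ω| ^ (p / 2) ∂μ := integral_nonneg fun ω => Real.rpow_nonneg (abs_nonneg _) _
  have e2 : (c ^ (p / 2 / 2)) ^ 2 = c ^ (p / 2) := by
    rw [← Real.rpow_natCast, ← Real.rpow_mul hc.le]
    congr 1
    push_cast
    ring
  calc (∫ ω, |A ω| ^ (p / 2) ∂μ) ^ 2 ≤ (c ^ (p / 2 / 2) * ∫ ω, J ω ^ (p / 2 / 2) ∂μ) ^ 2 := pow_le_pow_left₀ hI0 hprev 2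
    _ = c ^ (p / 2) * (∫ ω, J ω ^ (p / 2 / 2) ∂μ) ^ 2 := by rw [mul_pow, e2]
    _ ≤ c ^ (p / 2) * ∫ ω, J ω ^ (p / 2) ∂μ := mul_le_mul_of_nonneg_left j (Real.rpow_nonneg hc.le _)

/-- the range `2 ≤ p ≤ 4` -/
theorem blm_base (hA : Measurable A) (hJ : Measurable J) (hJ0 : ∀ ω, 0 ≤ J ω) (hAb : ∀ ω, |A ω| ≤ M) (hJb : ∀ ω, J ω ≤ M)
    (hA0 : ∫ ω, A ω ∂μ = 0)
    (hvar : ∀ φ : ℝ → ℝ, ContDiff ℝ n φ → Var[fun ω => φ (A ω); μ] ≤ ∫ ω, (deriv φ (A ω)) ^ 2 * J ω ∂μ)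
    {p : ℝ} (hp : 2 ≤ p) (hp4 : p ≤ 4) :
    ∫ ω, |A ω| ^ p ∂μ ≤ (1 + p ^ 2 / 3) ^ (p / 2) * ∫ ω, J ω ^ (p / 2) ∂μ := by
  rcases hp.eq_or_lt with rfl | hp2
  · have h := blm_two (μ := μ) (J := J) hA hAb hA0 hvar
    have h0 : 0 ≤ ∫ ω, J ω ∂μ := integral_nonneg hJ0
    have e : (2 : ℝ) / 2 = 1 := by norm_num
    simp only [e, Real.rpow_one]
    nlinarith
  · have h := blm_step hA hJ hJ0 hAb hJb hvar hp2 one_pos (blm_low hA hJ hJ0 hAb hJb hA0 hvar hp2 hp4)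
    refine h.trans (mul_le_mul_of_nonneg_right ?_ (integral_nonneg fun ω => Real.rpow_nonneg (hJ0 ω) _))
    exact Real.rpow_le_rpow (by positivity) (by nlinarith [sq_nonneg p]) (by linarith)

/-- the ladder -/
theorem blm_ladder (hA : Measurable A) (hJ : Measurable J) (hJ0 : ∀ ω, 0 ≤ J ω) (hAb : ∀ ω, |A ω| ≤ M) (hJb : ∀ ω, J ω ≤ M)
    (hA0 : ∫ ω, A ω ∂μ = 0)
    (hvar : ∀ φ : ℝ → ℝ, ContDiff ℝ n φ → Var[fun ω => φ (A ω); μ] ≤ ∫ ω, (deriv φ (A ω)) ^ 2 * J ω ∂μ) (k : ℕ) :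
    ∀ p : ℝ, 2 ≤ p → p ≤ 4 * 2 ^ k → ∫ ω, |A ω| ^ p ∂μ ≤ (1 + p ^ 2 / 3) ^ (p / 2) * ∫ ω, J ω ^ (p / 2) ∂μ := by
  induction k with
  | zero =>
    intro p h2 h4
    exact blm_base hA hJ hJ0 hAb hJb hA0 hvar h2 (by simpa using h4)
  | succ k ih =>
    intro p h2 h4
    by_cases h : p ≤ 4
    · exact blm_base hA hJ hJ0 hAb hJb hA0 hvar h2 h
    · push Not at h
      have h' := ih (p / 2) (by linarith) (by rw [pow_succ] at h4; linarith)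
      have hs := blm_step hA hJ hJ0 hAb hJb hvar (p := p) (d := 1 + (p / 2) ^ 2 / 3) (by linarith) (by positivity)
        (blm_high hJ hJ0 hJb h (by positivity) h')
      have e : 1 + (p / 2) ^ 2 / 3 + p ^ 2 / 4 = 1 + p ^ 2 / 3 := by ring
      rwa [e] at hs

end prob

/-- **BL2**, with the fix D1 of helper167: the hypothesis is only needed for test functions of any fixed
smoothness class `n` (use `n = ∞` or `ω`: the weakest hypothesis). -/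
theorem bl_moment_of_var_n {n : WithTop ℕ∞} {Ω : Type*} [MeasurableSpace Ω] {μ : Measure Ω} [IsProbabilityMeasure μ]
    {A J : Ω → ℝ} {M : ℝ} (hA : Measurable A) (hJ : Measurable J) (hJ0 : ∀ ω, 0 ≤ J ω)
    (hAb : ∀ ω, |A ω| ≤ M) (hJb : ∀ ω, J ω ≤ M) (hA0 : ∫ ω, A ω ∂μ = 0)
    (hvar : ∀ φ : ℝ → ℝ, ContDiff ℝ n φ →
      Var[fun ω => φ (A ω); μ] ≤ ∫ ω, (deriv φ (A ω)) ^ 2 * J ω ∂μ)
    {p : ℝ} (hp : 2 ≤ p) :
    (∫ ω, |A ω| ^ p ∂μ) ^ (2 / p) ≤ (1 + p ^ 2 / 3) * (∫ ω, J ω ^ (p / 2) ∂μ) ^ (2 / p) := by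
  obtain ⟨k, hk⟩ : ∃ k : ℕ, p ≤ 4 * 2 ^ k := by
    obtain ⟨k, hk⟩ := pow_unbounded_of_one_lt p (by norm_num : (1 : ℝ) < 2)
    exact ⟨k, by nlinarith [pow_pos (by norm_num : (0 : ℝ) < 2) k]⟩
  have h := blm_ladder hA hJ hJ0 hAb hJb hA0 hvar k p hp hk
  have hp0 : 0 < p := by linarith
  have hJi : 0 ≤ ∫ ω, J ω ^ (p / 2) ∂μ := integral_nonneg fun ω => Real.rpow_nonneg (hJ0 ω) _
  calc (∫ ω, |A ω| ^ p ∂μ) ^ (2 / p) ≤ ((1 + p ^ 2 / 3) ^ (p / 2) * ∫ ω, J ω ^ (p / 2) ∂μ) ^ (2 / p) :=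
        Real.rpow_le_rpow (integral_nonneg fun ω => Real.rpow_nonneg (abs_nonneg _) _) h (by positivity)
    _ = (1 + p ^ 2 / 3) * (∫ ω, J ω ^ (p / 2) ∂μ) ^ (2 / p) := by
        rw [Real.mul_rpow (by positivity) hJi, ← Real.rpow_mul (by positivity)]
        have : p / 2 * (2 / p) = 1 := by field_simp
        rw [this, Real.rpow_one]

/-- **BL2**: abstract passage `p = 2 → p > 2` of PE Lemma 2.3 (no geometry). -/
theorem bl_moment_of_var {Ω : Type*} [MeasurableSpace Ω] {μ : Measure Ω} [IsProbabilityMeasure μ]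
    {A J : Ω → ℝ} {M : ℝ} (hA : Measurable A) (hJ : Measurable J) (hJ0 : ∀ ω, 0 ≤ J ω)
    (hAb : ∀ ω, |A ω| ≤ M) (hJb : ∀ ω, J ω ≤ M) (hA0 : ∫ ω, A ω ∂μ = 0)
    (hvar : ∀ φ : ℝ → ℝ, ContDiff ℝ 2 φ →
      Var[fun ω => φ (A ω); μ] ≤ ∫ ω, (deriv φ (A ω)) ^ 2 * J ω ∂μ)
    {p : ℝ} (hp : 2 ≤ p) :
    (∫ ω, |A ω| ^ p ∂μ) ^ (2 / p) ≤ (1 + p ^ 2 / 3) * (∫ ω, J ω ^ (p / 2) ∂μ) ^ (2 / p) :=
  bl_moment_of_var_n hA hJ hJ0 hAb hJb hA0 hvar hp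

end Claimed.Agent.PL
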