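import Claimed.Agent.Lib.PLConvex

/-!
# Brascamp–Lieb variance inequality (inverse Hessian form, stated without inverses)
(owner helper115; complete, no sorry; GENERAL form: `f` only `C¹` and in `L²`, `R` only integrable.)

EXITS: `bl_variance` (probability normalisation, measure `blMeas μ U = e^{-U} dμ`), `bl_variance'` (`Var[f]`), `bl_variance_unnorm`.   TEX[PE:lem:found-moments] (the cited BL76 Thm 4.1), TEX[LL:A2] (same citation).

`E` finite dimensional real normed space, `μ` an additive Haar measure, `U : E → ℝ` of class `C²`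
with `c ‖z‖² ≤ D²U(x)(z,z)`, `f` of class `C¹`, and `R ≥ 0` with
`(Df(x) z)² ≤ D²U(x)(z,z) · R(x)` for all `x, z` (equivalently `⟨∇f,(∇²U)⁻¹∇f⟩ ≤ R`).  Then
`Var_ν f ≤ ∫ R dν` for `dν = e^{-U} dμ / Z`.

Route: Prékopa–Leindler at `t = 1/2` for `e^{-U-sf}`, `e^{-U+sf}`, `e^{-U+κ_s}` where
`κ_s(m) = sup_w [U(m) - (U(m+w)+U(m-w))/2 - (s/2)(f(m+w)-f(m-w))]`, then `s → 0`.
-/

open MeasureTheory Set Filter Topology
open scoped ENNReal NNReal

namespace Claimed.Agent.R286.BL

section calculus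

variable {E : Type*} [NormedAddCommGroup E] [NormedSpace ℝ E]

/-- second order midpoint gap from a lower bound on the second derivative along the segment. -/
theorem bl_midpoint_gap {U : E → ℝ} {U' : E → E →L[ℝ] ℝ} {U'' : E → E →L[ℝ] E →L[ℝ] ℝ}
    (hU : ∀ x, HasFDerivAt U (U' x) x) (hU' : ∀ x, HasFDerivAt U' (U'' x) x)
    (m w : E) (q : ℝ) (hq : ∀ r : ℝ, |r| ≤ 1 → q ≤ U'' (m + r • w) w w) :
    q ≤ U (m + w) + U (m - w) - 2 * U m := by
  let ψ : ℝ → ℝ := fun r => U (m + r • w) + U (m - r • w) - 2 * U m - q * r ^ 2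
  let g : ℝ → ℝ := fun r => U' (m + r • w) w - U' (m - r • w) w - 2 * q * r
  have hline : ∀ r : ℝ, HasDerivAt (fun r : ℝ => m + r • w) w r := by
    intro r
    simpa using ((hasDerivAt_id r).smul_const w).const_add m
  have hline' : ∀ r : ℝ, HasDerivAt (fun r : ℝ => m - r • w) (-w) r := by
    intro r
    simpa using ((hasDerivAt_id r).smul_const w).const_sub m
  have hψd : ∀ r, HasDerivAt ψ (g r) r := by
    intro r
    have h1 := (hU (m + r • w)).comp_hasDerivAt r (hline r)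
    have h2 := (hU (m - r • w)).comp_hasDerivAt r (hline' r)
    have h3 := ((hasDerivAt_pow 2 r).const_mul q)
    have := ((h1.add h2).sub_const (2 * U m)).sub h3
    refine HasDerivAt.congr_deriv (f := ψ) this ?_
    simp only [g, map_neg]
    norm_num
    ring
  have hgd : ∀ r, HasDerivAt g (U'' (m + r • w) w w + U'' (m - r • w) w w - 2 * q) r := by
    intro r
    have e := (ContinuousLinearMap.apply ℝ ℝ w).hasFDerivAt (x := U' (m + r • w))
    have e' := (ContinuousLinearMap.apply ℝ ℝ w).hasFDerivAt (x := U' (m - r • w))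
    have h1 := e.comp_hasDerivAt r ((hU' (m + r • w)).comp_hasDerivAt r (hline r))
    have h2 := e'.comp_hasDerivAt r ((hU' (m - r • w)).comp_hasDerivAt r (hline' r))
    have h3 := ((hasDerivAt_id r).const_mul (2 * q))
    have := (h1.sub h2).sub h3
    refine HasDerivAt.congr_deriv (f := g) this ?_
    simp
  have hgmono : MonotoneOn g (Icc 0 1) := by
    apply monotoneOn_of_deriv_nonneg (convex_Icc 0 1)
      (fun r _ => (hgd r).continuousAt.continuousWithinAt)
      (fun r _ => (hgd r).differentiableAt.differentiableWithinAt)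
    intro r hr
    rw [interior_Icc] at hr
    rw [(hgd r).deriv]
    have h1 := hq r (by rw [abs_le]; constructor <;> linarith [hr.1, hr.2])
    have h2 := hq (-r) (by rw [abs_le]; constructor <;> linarith [hr.1, hr.2])
    have h3 : m + (-r) • w = m - r • w := by rw [neg_smul, sub_eq_add_neg]
    rw [h3] at h2
    linarith
  have hg0 : g 0 = 0 := by simp [g]
  have hψmono : MonotoneOn ψ (Icc 0 1) := by
    apply monotoneOn_of_deriv_nonneg (convex_Icc 0 1)
      (fun r _ => (hψd r).continuousAt.continuousWithinAt)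
      (fun r _ => (hψd r).differentiableAt.differentiableWithinAt)
    intro r hr
    rw [interior_Icc] at hr
    rw [(hψd r).deriv, ← hg0]
    exact hgmono (by simp) ⟨hr.1.le, hr.2.le⟩ hr.1.le
  have h01 := hψmono (a := 0) (b := 1) (by simp) (by simp) zero_le_one
  simp only [ψ] at h01
  simp at h01
  linarith

/-- the bracket of the sup-convolution. -/
noncomputable def blF (U f : E → ℝ) (s : ℝ) (m w : E) : ℝ :=
  U m - (U (m + w) + U (m - w)) / 2 - s / 2 * (f (m + w) - f (m - w))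

/-- the defect function `κ_s`. -/
noncomputable def blK (U f : E → ℝ) (s : ℝ) (m : E) : ℝ := ⨆ w, blF U f s m w

variable {U : E → ℝ} {U' : E → E →L[ℝ] ℝ} {U'' : E → E →L[ℝ] E →L[ℝ] ℝ} {c : ℝ} {f : E → ℝ}
  {L : ℝ}

theorem blF_le_aux (hU : ∀ x, HasFDerivAt U (U' x) x) (hU' : ∀ x, HasFDerivAt U' (U'' x) x)
    (hconv : ∀ x z, c * ‖z‖ ^ 2 ≤ U'' x z z)
    (hL : ∀ x y, |f x - f y| ≤ L * ‖x - y‖) {s : ℝ} (hs : 0 ≤ s) (m w : E) :
    blF U f s m w ≤ - (c / 2) * ‖w‖ ^ 2 + s * L * ‖w‖ := by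
  have h1 := bl_midpoint_gap hU hU' m w (c * ‖w‖ ^ 2) (fun r _ => hconv _ _)
  have h2 := hL (m + w) (m - w)
  have h3 : m + w - (m - w) = (2 : ℝ) • w := by rw [two_smul]; abel
  rw [h3, norm_smul] at h2
  simp only [Real.norm_eq_abs, abs_two] at h2
  have h4 := (abs_le.1 h2).1
  have h5 : s / 2 * (-(L * (2 * ‖w‖))) ≤ s / 2 * (f (m + w) - f (m - w)) :=
    mul_le_mul_of_nonneg_left h4 (by positivity)
  unfold blF
  nlinarith

theorem blF_le (hc : 0 < c) (hU : ∀ x, HasFDerivAt U (U' x) x)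
    (hU' : ∀ x, HasFDerivAt U' (U'' x) x) (hconv : ∀ x z, c * ‖z‖ ^ 2 ≤ U'' x z z)
    (hL : ∀ x y, |f x - f y| ≤ L * ‖x - y‖) {s : ℝ} (hs : 0 ≤ s) (m w : E) :
    blF U f s m w ≤ s ^ 2 * (L ^ 2 / (2 * c)) := by
  refine (blF_le_aux hU hU' hconv hL hs m w).trans ?_
  have : s ^ 2 * (L ^ 2 / (2 * c)) - (- (c / 2) * ‖w‖ ^ 2 + s * L * ‖w‖)
      = (c * ‖w‖ - s * L) ^ 2 / (2 * c) := by
    field_simp; ring
  have h2 : 0 ≤ (c * ‖w‖ - s * L) ^ 2 / (2 * c) := by positivity
  linarith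

theorem blF_bddAbove (hc : 0 < c) (hU : ∀ x, HasFDerivAt U (U' x) x)
    (hU' : ∀ x, HasFDerivAt U' (U'' x) x) (hconv : ∀ x z, c * ‖z‖ ^ 2 ≤ U'' x z z)
    (hL : ∀ x y, |f x - f y| ≤ L * ‖x - y‖) {s : ℝ} (hs : 0 ≤ s) (m : E) :
    BddAbove (range fun w => blF U f s m w) :=
  ⟨s ^ 2 * (L ^ 2 / (2 * c)), by rintro _ ⟨w, rfl⟩; exact blF_le hc hU hU' hconv hL hs m w⟩

theorem blK_le (hc : 0 < c) (hU : ∀ x, HasFDerivAt U (U' x) x)
    (hU' : ∀ x, HasFDerivAt U' (U'' x) x) (hconv : ∀ x z, c * ‖z‖ ^ 2 ≤ U'' x z z)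
    (hL : ∀ x y, |f x - f y| ≤ L * ‖x - y‖) {s : ℝ} (hs : 0 ≤ s) (m : E) :
    blK U f s m ≤ s ^ 2 * (L ^ 2 / (2 * c)) :=
  ciSup_le fun w => blF_le hc hU hU' hconv hL hs m w

theorem blK_nonneg (hc : 0 < c) (hU : ∀ x, HasFDerivAt U (U' x) x)
    (hU' : ∀ x, HasFDerivAt U' (U'' x) x) (hconv : ∀ x z, c * ‖z‖ ^ 2 ≤ U'' x z z)
    (hL : ∀ x y, |f x - f y| ≤ L * ‖x - y‖) {s : ℝ} (hs : 0 ≤ s) (m : E) :
    0 ≤ blK U f s m := by
  have := le_ciSup (blF_bddAbove hc hU hU' hconv hL hs m) 0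
  have h0 : blF U f s m 0 = 0 := by simp [blF]
  rw [h0] at this
  exact this

theorem blK_measurable [MeasurableSpace E] [BorelSpace E] (hc : 0 < c)
    (hU : ∀ x, HasFDerivAt U (U' x) x)
    (hU' : ∀ x, HasFDerivAt U' (U'' x) x) (hconv : ∀ x z, c * ‖z‖ ^ 2 ≤ U'' x z z)
    (hL : ∀ x y, |f x - f y| ≤ L * ‖x - y‖) (hfc : Continuous f) {s : ℝ} (hs : 0 ≤ s) :
    Measurable (blK U f s) := by
  have hUc : Continuous U := continuous_iff_continuousAt.2 fun x => (hU x).continuousAt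
  apply LowerSemicontinuous.measurable
  apply lowerSemicontinuous_ciSup (fun m => blF_bddAbove hc hU hU' hconv hL hs m)
  intro w
  apply Continuous.lowerSemicontinuous
  unfold blF
  fun_prop

theorem bl_alg {Q n l s R θ c : ℝ} (hs : 0 < s) (hθ0 : 0 < θ) (hθ1 : θ < 1) (hc : 0 < c)
    (hR0 : 0 ≤ R) (hQ : c * n ^ 2 ≤ Q) (hl : l ^ 2 ≤ Q * R) :
    - Q / 2 + (θ * c / 2) * n ^ 2 / 2 - s * l + s * (θ * c / 2) * n
      ≤ s ^ 2 * (R / (2 * (1 - θ)) + θ * c / 4) := by
  have h1θ : 0 < 1 - θ := by linarith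
  have hQ0 : 0 ≤ Q := le_trans (by positivity) hQ
  have h2 : |s * l| ≤ ((1 - θ) * Q + s ^ 2 * R / (1 - θ)) / 2 := by
    apply abs_le_of_sq_le_sq _ (by positivity)
    have e : (((1 - θ) * Q + s ^ 2 * R / (1 - θ)) / 2) ^ 2
        = (((1 - θ) * Q - s ^ 2 * R / (1 - θ)) / 2) ^ 2 + s ^ 2 * (Q * R) := by
      field_simp; ring
    rw [e, mul_pow]
    have : s ^ 2 * l ^ 2 ≤ s ^ 2 * (Q * R) := by gcongr
    nlinarith [sq_nonneg (((1 - θ) * Q - s ^ 2 * R / (1 - θ)) / 2)]
  have h3 := (abs_le.1 h2).1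
  have h4 : 0 ≤ θ * c / 4 * (n - s) ^ 2 := by positivity
  have h5 : θ * (c * n ^ 2) ≤ θ * Q := by gcongr
  have e2 : s ^ 2 * (R / (2 * (1 - θ)) + θ * c / 4) = s ^ 2 * R / (1 - θ) / 2 + s ^ 2 * (θ * c / 4) := by
    field_simp
  rw [e2]
  nlinarith

theorem blK_local (hc : 0 < c) (hU : ∀ x, HasFDerivAt U (U' x) x)
    (hU' : ∀ x, HasFDerivAt U' (U'' x) x) (hU''c : Continuous U'')
    (hconv : ∀ x z, c * ‖z‖ ^ 2 ≤ U'' x z z)
    (hL : ∀ x y, |f x - f y| ≤ L * ‖x - y‖) {f' : E →L[ℝ] ℝ} {m : E}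
    (hf : HasFDerivAt f f' m) {R : ℝ} (hR0 : 0 ≤ R) (hR : ∀ z, (f' z) ^ 2 ≤ U'' m z z * R)
    {θ : ℝ} (hθ0 : 0 < θ) (hθ1 : θ < 1) :
    ∀ᶠ s in 𝓝[>] (0:ℝ), blK U f s m ≤ s ^ 2 * (R / (2 * (1 - θ)) + θ * c / 4) := by
  have hη0 : 0 < θ * c / 2 := by positivity
  have h1 : ∀ᶠ y in 𝓝 m, ‖U'' y - U'' m‖ ≤ θ * c / 2 := by
    have h := (hU''c.tendsto m).eventually (Metric.ball_mem_nhds (U'' m) hη0)
    filter_upwards [h] with y hy
    exact ((dist_eq_norm (U'' y) (U'' m)).symm.trans_lt hy).le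
  have h2 : ∀ᶠ y in 𝓝 m, ‖f y - f m - f' (y - m)‖ ≤ θ * c / 2 * ‖y - m‖ :=
    (hf.isLittleO).def hη0
  obtain ⟨δ, hδ0, hδ⟩ := Metric.eventually_nhds_iff.1 (h1.and h2)
  have hs : ∀ᶠ s in 𝓝[>] (0:ℝ), 0 < s ∧ s * (2 * L) < δ * c := by
    have t : Tendsto (fun s : ℝ => s * (2 * L)) (𝓝[>] 0) (𝓝 0) := by
      have : Tendsto (fun s : ℝ => s * (2 * L)) (𝓝 0) (𝓝 (0 * (2 * L))) :=
        (continuous_id.mul continuous_const).tendsto 0
      simpa using this.mono_left nhdsWithin_le_nhds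
    filter_upwards [self_mem_nhdsWithin, t.eventually (Iio_mem_nhds (by positivity : 0 < δ * c))]
      with s h1 h2
    exact ⟨h1, h2⟩
  filter_upwards [hs] with s ⟨hs0, hsδ⟩
  apply ciSup_le
  intro w
  have h1θ : 0 < 1 - θ := by linarith
  by_cases hw : ‖w‖ < δ
  · have hq : ∀ r : ℝ, |r| ≤ 1 → U'' m w w - θ * c / 2 * ‖w‖ ^ 2 ≤ U'' (m + r • w) w w := by
      intro r hr
      have hd : dist (m + r • w) m < δ := by
        rw [dist_eq_norm, add_sub_cancel_left, norm_smul, Real.norm_eq_abs]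
        calc |r| * ‖w‖ ≤ 1 * ‖w‖ := by gcongr
          _ < δ := by simpa using hw
      have h := (hδ hd).1
      have h3 : |(U'' (m + r • w) - U'' m) w w| ≤ θ * c / 2 * ‖w‖ ^ 2 := by
        calc |(U'' (m + r • w) - U'' m) w w| = ‖(U'' (m + r • w) - U'' m) w w‖ := rfl
          _ ≤ ‖U'' (m + r • w) - U'' m‖ * ‖w‖ * ‖w‖ := ContinuousLinearMap.le_opNorm₂ _ _ _
          _ ≤ θ * c / 2 * ‖w‖ * ‖w‖ := by gcongr
          _ = _ := by ring
      have h4 := (abs_le.1 h3).1
      simp only [sub_apply] at h4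
      linarith
    have gap := bl_midpoint_gap hU hU' m w _ hq
    have hp : dist (m + w) m < δ := by simpa [dist_eq_norm] using hw
    have hm : dist (m - w) m < δ := by simpa [dist_eq_norm] using hw
    have fp := (hδ hp).2
    have fm := (hδ hm).2
    have e1 : m + w - m = w := by abel
    have e2 : m - w - m = -w := by abel
    rw [e1, Real.norm_eq_abs] at fp
    rw [e2, Real.norm_eq_abs, norm_neg, map_neg] at fm
    have fp' := (abs_le.1 fp).1
    have fm' := (abs_le.1 fm).2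
    refine le_trans ?_ (bl_alg (Q := U'' m w w) (n := ‖w‖) (l := f' w) hs0 hθ0 hθ1 hc hR0
      (hconv m w) (hR w))
    have h5 : s / 2 * (2 * f' w - 2 * (θ * c / 2 * ‖w‖)) ≤ s / 2 * (f (m + w) - f (m - w)) :=
      mul_le_mul_of_nonneg_left (by linarith) (by positivity)
    unfold blF
    nlinarith
  · have h := blF_le_aux hU hU' hconv hL hs0.le m w
    rw [not_lt] at hw
    have h0 : 0 ≤ s ^ 2 * (R / (2 * (1 - θ)) + θ * c / 4) := by positivity
    refine h.trans (le_trans ?_ h0)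
    have h6 : s * L - c / 2 * ‖w‖ ≤ 0 := by nlinarith
    have : - (c / 2) * ‖w‖ ^ 2 + s * L * ‖w‖ = ‖w‖ * (s * L - c / 2 * ‖w‖) := by ring
    rw [this]
    exact mul_nonpos_of_nonneg_of_nonpos (norm_nonneg _) h6

end calculus

section extract

theorem bl_exp_lower {a : ℝ} (ha : |a| ≤ 1) : 1 + a + a ^ 2 / 2 - |a| ^ 3 ≤ Real.exp a := by
  have h := Real.exp_bound ha (n := 3) (by norm_num)
  simp only [Finset.sum_range_succ, Finset.sum_range_zero, Nat.factorial] at h
  norm_num at h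
  have h1 := (abs_le.1 h).1
  have h2 : 0 ≤ |a| ^ 3 := by positivity
  nlinarith

theorem bl_exp_upper {k b : ℝ} (hk : 0 ≤ k) (hkb : k ≤ b) :
    Real.exp k ≤ 1 + Real.exp b * k := by
  have h1 : 1 - k ≤ Real.exp (-k) := by linarith [Real.add_one_le_exp (-k)]
  have h2 : (1 - k) * Real.exp k ≤ 1 := by
    calc (1 - k) * Real.exp k ≤ Real.exp (-k) * Real.exp k := by gcongr
      _ = 1 := by rw [← Real.exp_add]; simp
  have h3 : Real.exp k * k ≤ Real.exp b * k := by gcongr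
  nlinarith

variable {α : Type*} [MeasurableSpace α]

theorem bl_laplace_lower (ν : Measure α) [IsProbabilityMeasure ν]
    {f : α → ℝ} (hfm : Measurable f) {M : ℝ} (hM : ∀ x, |f x| ≤ M) (hf0 : ∫ x, f x ∂ν = 0)
    {σ : ℝ} (hσ : |σ| * M ≤ 1) :
    1 + σ ^ 2 * (∫ x, f x ^ 2 ∂ν) / 2 - |σ| ^ 3 * M ^ 3 ≤ ∫ x, Real.exp (σ * f x) ∂ν := by
  have hM0 : 0 ≤ M := (abs_nonneg _).trans (hM (Classical.choice (by
    by_contra h
    rw [not_nonempty_iff] at h
    have := (IsProbabilityMeasure.measure_univ (μ := ν))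
    simp [Set.univ_eq_empty_iff.2 h] at this)))
  have i1 : Integrable f ν := Integrable.of_bound hfm.aestronglyMeasurable M
    (Eventually.of_forall fun x => by simpa using hM x)
  have i2 : Integrable (fun x => f x ^ 2) ν := Integrable.of_bound
    (hfm.pow_const 2).aestronglyMeasurable (M ^ 2)
    (Eventually.of_forall fun x => by
      rw [Real.norm_eq_abs, abs_pow]
      exact pow_le_pow_left₀ (abs_nonneg _) (hM x) 2)
  have i3 : Integrable (fun x => Real.exp (σ * f x)) ν := Integrable.of_bound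
    (by fun_prop) (Real.exp 1)
    (Eventually.of_forall fun x => by
      rw [Real.norm_eq_abs, abs_of_pos (Real.exp_pos _)]
      apply Real.exp_le_exp.2
      calc σ * f x ≤ |σ * f x| := le_abs_self _
        _ = |σ| * |f x| := abs_mul _ _
        _ ≤ |σ| * M := by gcongr; exact hM x
        _ ≤ 1 := hσ)
  have key : ∫ x, (1 + σ * f x + σ ^ 2 * f x ^ 2 / 2 - |σ| ^ 3 * M ^ 3) ∂ν
      ≤ ∫ x, Real.exp (σ * f x) ∂ν := by
    apply integral_mono _ i3
    · intro x
      have hx : |σ * f x| ≤ 1 := by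
        calc |σ * f x| = |σ| * |f x| := abs_mul _ _
          _ ≤ |σ| * M := by gcongr; exact hM x
          _ ≤ 1 := hσ
      have h := bl_exp_lower hx
      have h3 : |σ * f x| ^ 3 ≤ |σ| ^ 3 * M ^ 3 := by
        rw [abs_mul, mul_pow]
        gcongr
        exact hM x
      simp only
      nlinarith
    · exact (((integrable_const 1).add (i1.const_mul σ)).add ((i2.const_mul (σ ^ 2)).div_const 2)).sub
        (integrable_const _)
  have e : ∫ x, (1 + σ * f x + σ ^ 2 * f x ^ 2 / 2 - |σ| ^ 3 * M ^ 3) ∂ν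
      = 1 + σ ^ 2 * (∫ x, f x ^ 2 ∂ν) / 2 - |σ| ^ 3 * M ^ 3 := by
    have j1 : Integrable (fun x => 1 + σ * f x) ν := (integrable_const 1).add (i1.const_mul σ)
    have j0 : Integrable (fun x => σ ^ 2 * f x ^ 2 / 2) ν := (i2.const_mul (σ ^ 2)).div_const 2
    have j2 : Integrable (fun x => 1 + σ * f x + σ ^ 2 * f x ^ 2 / 2) ν := j1.add j0
    rw [integral_sub j2 (integrable_const _), integral_add j1 j0,
      integral_add (integrable_const 1) (i1.const_mul σ), integral_div, integral_const_mul,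
      integral_const_mul, hf0]
    simp
  rw [← e]
  exact key

theorem bl_extract (ν : Measure α) [IsProbabilityMeasure ν]
    {f : α → ℝ} (hfm : Measurable f) {M : ℝ} (hM : ∀ x, |f x| ≤ M) (hf0 : ∫ x, f x ∂ν = 0)
    {B : ℝ} {κ : ℕ → α → ℝ} (hκm : ∀ n, Measurable (κ n)) {s : ℕ → ℝ} (hs : ∀ n, 0 < s n)
    (hs0 : Tendsto s atTop (𝓝 0)) (hκ0 : ∀ n x, 0 ≤ κ n x) (hκB : ∀ n x, κ n x ≤ s n ^ 2 * B)
    {T : α → ℝ} (hT : Integrable T ν) (hκT : ∀ x, ∀ᶠ n in atTop, κ n x ≤ s n ^ 2 * T x)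
    (hPL : ∀ n, (∫ x, Real.exp (- (s n * f x)) ∂ν) * (∫ x, Real.exp (s n * f x) ∂ν)
      ≤ (∫ x, Real.exp (κ n x) ∂ν) ^ 2) :
    ∫ x, f x ^ 2 ∂ν ≤ 2 * ∫ x, T x ∂ν := by
  set v := ∫ x, f x ^ 2 ∂ν with hv
  let h : ℕ → α → ℝ := fun n x => max (κ n x / s n ^ 2 - T x) 0
  have hB0 : ∀ n x, κ n x / s n ^ 2 ≤ B := by
    intro n x
    rw [div_le_iff₀ (by have := hs n; positivity)]
    linarith [hκB n x]
  have hq0 : ∀ n x, 0 ≤ κ n x / s n ^ 2 := fun n x => div_nonneg (hκ0 n x) (by positivity)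
  have iκ : ∀ n, Integrable (κ n) ν := fun n => Integrable.of_bound
    (hκm n).aestronglyMeasurable (s n ^ 2 * B)
    (Eventually.of_forall fun x => by
      rw [Real.norm_eq_abs, abs_of_nonneg (hκ0 n x)]; exact hκB n x)
  have ih : ∀ n, Integrable (h n) ν := fun n =>
    (((iκ n).div_const _).sub hT).sup (integrable_zero _ _ _)
  have hlim : Tendsto (fun n => ∫ x, h n x ∂ν) atTop (𝓝 (∫ _, (0:ℝ) ∂ν)) := by
    apply tendsto_integral_of_dominated_convergence (fun x => B + |T x|)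
    · exact fun n => (ih n).aestronglyMeasurable
    · exact (integrable_const B).add hT.abs
    · intro n
      refine Eventually.of_forall fun x => ?_
      rw [Real.norm_eq_abs, abs_of_nonneg (le_max_right _ _)]
      apply max_le
      · linarith [hB0 n x, neg_abs_le (T x)]
      · linarith [hB0 n x, hq0 n x, abs_nonneg (T x)]
    · refine Eventually.of_forall fun x => ?_
      apply tendsto_const_nhds.congr'
      filter_upwards [hκT x] with n hn
      symm
      apply max_eq_right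
      have : κ n x / s n ^ 2 ≤ T x := by
        rw [div_le_iff₀ (by have := hs n; positivity)]
        linarith
      linarith
  simp only [integral_zero] at hlim
  -- the inequality for large n
  have hev : ∀ᶠ n in atTop, v / 2 - s n * M ^ 3
      ≤ Real.exp (s n ^ 2 * B) * ((∫ x, T x ∂ν) + ∫ x, h n x ∂ν) := by
    have t : Tendsto (fun n => s n * M) atTop (𝓝 0) := by simpa using hs0.mul_const M
    filter_upwards [t.eventually (Iic_mem_nhds (by norm_num : (0:ℝ) < 1))] with n hn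
    have hsn := hs n
    have hn' : |s n| * M ≤ 1 := by rw [abs_of_pos hsn]; exact hn
    have hn'' : |-(s n)| * M ≤ 1 := by rw [abs_neg]; exact hn'
    have a1 := bl_laplace_lower ν hfm hM hf0 hn'
    have a2 := bl_laplace_lower ν hfm hM hf0 hn''
    rw [abs_neg, neg_sq] at a2
    rw [abs_of_pos hsn] at a1 a2
    simp only [neg_mul] at a2
    set l := 1 + s n ^ 2 * v / 2 - s n ^ 3 * M ^ 3 with hl
    set C := ∫ x, Real.exp (κ n x) ∂ν with hC
    have hC0 : 0 ≤ C := integral_nonneg fun x => (Real.exp_pos _).le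
    have hlC : l ≤ C := by
      rcases le_or_gt l 0 with h0 | h0
      · exact h0.trans hC0
      · have : l ^ 2 ≤ C ^ 2 := by
          calc l ^ 2 = l * l := by ring
            _ ≤ _ := mul_le_mul a2 a1 h0.le (h0.le.trans a2)
            _ ≤ C ^ 2 := hPL n
        exact (abs_le_of_sq_le_sq' this hC0).2
    have hCu : C ≤ 1 + Real.exp (s n ^ 2 * B) * ∫ x, κ n x ∂ν := by
      have : C ≤ ∫ x, (1 + Real.exp (s n ^ 2 * B) * κ n x) ∂ν := by
        apply integral_mono_of_nonneg (Eventually.of_forall fun x => (Real.exp_pos _).le)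
          ((integrable_const 1).add ((iκ n).const_mul _))
        exact Eventually.of_forall fun x => bl_exp_upper (hκ0 n x) (hκB n x)
      rw [integral_add (integrable_const 1) ((iκ n).const_mul _), integral_const_mul] at this
      simpa using this
    have hκi : ∫ x, κ n x ∂ν ≤ s n ^ 2 * ((∫ x, T x ∂ν) + ∫ x, h n x ∂ν) := by
      rw [← integral_add hT (ih n), ← integral_const_mul]
      apply integral_mono (iκ n) ((hT.add (ih n)).const_mul _)
      intro x
      have h1 : κ n x / s n ^ 2 - T x ≤ h n x := le_max_left _ _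
      have h2 : κ n x = s n ^ 2 * (κ n x / s n ^ 2) := by field_simp
      simp only
      rw [h2]
      gcongr
      rw [Pi.add_apply]
      linarith
    have hfin : s n ^ 2 * (v / 2 - s n * M ^ 3)
        ≤ s n ^ 2 * (Real.exp (s n ^ 2 * B) * ((∫ x, T x ∂ν) + ∫ x, h n x ∂ν)) := by
      have : Real.exp (s n ^ 2 * B) * ∫ x, κ n x ∂ν
          ≤ Real.exp (s n ^ 2 * B) * (s n ^ 2 * ((∫ x, T x ∂ν) + ∫ x, h n x ∂ν)) := by gcongr
      nlinarith
    exact le_of_mul_le_mul_left hfin (by positivity)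
  have tl : Tendsto (fun n => v / 2 - s n * M ^ 3) atTop (𝓝 (v / 2)) := by
    simpa using tendsto_const_nhds.sub (hs0.mul_const (M ^ 3))
  have tr : Tendsto (fun n => Real.exp (s n ^ 2 * B) * ((∫ x, T x ∂ν) + ∫ x, h n x ∂ν)) atTop
      (𝓝 (∫ x, T x ∂ν)) := by
    have e1 : Tendsto (fun n => Real.exp (s n ^ 2 * B)) atTop (𝓝 1) := by
      have : Tendsto (fun n => s n ^ 2 * B) atTop (𝓝 0) := by simpa using (hs0.pow 2).mul_const B
      have h2 := (Real.continuous_exp.tendsto 0).comp this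
      rw [Real.exp_zero] at h2
      exact h2
    simpa using e1.mul (tendsto_const_nhds.add hlim)
  have := le_of_tendsto_of_tendsto tl tr hev
  linarith

end extract

open Claimed.Agent.PL

/-- Prékopa–Leindler for three real exponents. -/
theorem bl_pl_three {F : Type*} [AddCommGroup F] [Module ℝ F] [MeasurableSpace F]
    {ν : Measure F} (hν : PLProp F ν) {A B C : F → ℝ} {t : ℝ}
    (ht0 : 0 < t) (ht1 : t < 1)
    (hm0 : Measurable A) (hm1 : Measurable B) (hmt : Measurable C)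
    (hW : ∀ y₀ y₁, C ((1 - t) • y₀ + t • y₁) ≤ (1 - t) * A y₀ + t * B y₁)
    (hi0 : Integrable (fun y => Real.exp (- A y)) ν)
    (hi1 : Integrable (fun y => Real.exp (- B y)) ν)
    (hit : Integrable (fun y => Real.exp (- C y)) ν) :
    (∫ y, Real.exp (- A y) ∂ν) ^ (1 - t) * (∫ y, Real.exp (- B y) ∂ν) ^ t
      ≤ ∫ y, Real.exp (- C y) ∂ν := by
  have h1t : 0 < 1 - t := by linarith
  have key := hν t ht0 ht1 (fun y => ENNReal.ofReal (Real.exp (- A y)))
    (fun y => ENNReal.ofReal (Real.exp (- B y)))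
    (fun y => ENNReal.ofReal (Real.exp (- C y)))
    (by fun_prop) (by fun_prop) (by fun_prop) ?_
  · rw [← ofReal_integral_eq_lintegral_ofReal hi0 (Eventually.of_forall fun _ => (Real.exp_pos _).le),
      ← ofReal_integral_eq_lintegral_ofReal hi1 (Eventually.of_forall fun _ => (Real.exp_pos _).le),
      ← ofReal_integral_eq_lintegral_ofReal hit (Eventually.of_forall fun _ => (Real.exp_pos _).le),
      ENNReal.ofReal_rpow_of_nonneg (integral_nonneg fun _ => (Real.exp_pos _).le) h1t.le,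
      ENNReal.ofReal_rpow_of_nonneg (integral_nonneg fun _ => (Real.exp_pos _).le) ht0.le,
      ← ENNReal.ofReal_mul (Real.rpow_nonneg (integral_nonneg fun _ => (Real.exp_pos _).le) _)]
      at key
    exact (ENNReal.ofReal_le_ofReal_iff (integral_nonneg fun _ => (Real.exp_pos _).le)).1 key
  · intro y₀ y₁
    rw [ENNReal.ofReal_rpow_of_nonneg (Real.exp_pos _).le h1t.le,
      ENNReal.ofReal_rpow_of_nonneg (Real.exp_pos _).le ht0.le,
      ← ENNReal.ofReal_mul (Real.rpow_nonneg (Real.exp_pos _).le _)]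
    apply ENNReal.ofReal_le_ofReal
    rw [← Real.exp_mul, ← Real.exp_mul, ← Real.exp_add]
    apply Real.exp_le_exp.2
    have := hW y₀ y₁
    linarith

/-- the half–half case, squared. -/
theorem bl_pl_half {F : Type*} [AddCommGroup F] [Module ℝ F] [MeasurableSpace F]
    {ν : Measure F} (hν : PLProp F ν) {A B C : F → ℝ}
    (hm0 : Measurable A) (hm1 : Measurable B) (hmt : Measurable C)
    (hW : ∀ m w, C m ≤ (A (m + w) + B (m - w)) / 2)
    (hi0 : Integrable (fun y => Real.exp (- A y)) ν)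
    (hi1 : Integrable (fun y => Real.exp (- B y)) ν)
    (hit : Integrable (fun y => Real.exp (- C y)) ν) :
    (∫ y, Real.exp (- A y) ∂ν) * (∫ y, Real.exp (- B y) ∂ν)
      ≤ (∫ y, Real.exp (- C y) ∂ν) ^ 2 := by
  have key := bl_pl_three hν (t := 1 / 2) (by norm_num) (by norm_num) hm0 hm1 hmt ?_ hi0 hi1 hit
  · have a0 : 0 ≤ ∫ y, Real.exp (- A y) ∂ν := integral_nonneg fun _ => (Real.exp_pos _).le
    have b0 : 0 ≤ ∫ y, Real.exp (- B y) ∂ν := integral_nonneg fun _ => (Real.exp_pos _).le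
    have h2 := pow_le_pow_left₀ (by positivity) key 2
    have e : ((1:ℝ) - 1 / 2) = 1 / 2 := by norm_num
    rw [e, mul_pow, ← Real.sqrt_eq_rpow, ← Real.sqrt_eq_rpow, Real.sq_sqrt a0, Real.sq_sqrt b0] at h2
    exact h2
  · intro y₀ y₁
    have h := hW (((1:ℝ) - 1 / 2) • y₀ + (1 / 2 : ℝ) • y₁) ((1 / 2 : ℝ) • y₀ - (1 / 2 : ℝ) • y₁)
    have e1 : ((1:ℝ) - 1 / 2) • y₀ + (1 / 2 : ℝ) • y₁ + ((1 / 2 : ℝ) • y₀ - (1 / 2 : ℝ) • y₁) = y₀ := by
      have : ((1:ℝ) - 1 / 2) • y₀ + (1 / 2 : ℝ) • y₁ + ((1 / 2 : ℝ) • y₀ - (1 / 2 : ℝ) • y₁)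
          = (((1:ℝ) - 1 / 2) + 1 / 2) • y₀ := by rw [add_smul]; abel
      rw [this]; norm_num
    have e2 : ((1:ℝ) - 1 / 2) • y₀ + (1 / 2 : ℝ) • y₁ - ((1 / 2 : ℝ) • y₀ - (1 / 2 : ℝ) • y₁) = y₁ := by
      have : ((1:ℝ) - 1 / 2) • y₀ + (1 / 2 : ℝ) • y₁ - ((1 / 2 : ℝ) • y₀ - (1 / 2 : ℝ) • y₁)
          = ((1 / 2 : ℝ) + 1 / 2) • y₁ := by
        have e : ((1:ℝ) - 1 / 2) = 1 / 2 := by norm_num
        rw [add_smul, e]; abel
      rw [this]; norm_num
    rw [e1, e2] at h
    linarith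

section dens
variable {E : Type*} [MeasurableSpace E] {μ : Measure E} {U : E → ℝ}

/-- the measure `e^{-U} dμ`. -/
noncomputable def blMeas (μ : Measure E) (U : E → ℝ) : Measure E :=
  μ.withDensity fun x => ENNReal.ofReal (Real.exp (- U x))

theorem blMeas_integral (hU : Measurable U) (g : E → ℝ) :
    ∫ x, g x ∂(blMeas μ U) = ∫ x, Real.exp (- U x) * g x ∂μ := by
  unfold blMeas
  rw [integral_withDensity_eq_integral_toReal_smul (by fun_prop)
    (Eventually.of_forall fun x => ENNReal.ofReal_lt_top)]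
  simp [ENNReal.toReal_ofReal (Real.exp_pos _).le]

theorem blMeas_integrable (hU : Measurable U) (g : E → ℝ) :
    Integrable g (blMeas μ U) ↔ Integrable (fun x => Real.exp (- U x) * g x) μ := by
  unfold blMeas
  rw [integrable_withDensity_iff_integrable_smul' (by fun_prop)
    (Eventually.of_forall fun x => ENNReal.ofReal_lt_top)]
  simp [ENNReal.toReal_ofReal (Real.exp_pos _).le]

end dens


section core

variable {E : Type*} [NormedAddCommGroup E] [NormedSpace ℝ E] [FiniteDimensional ℝ E]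
  [MeasurableSpace E] [BorelSpace E]
variable {U : E → ℝ} {U' : E → E →L[ℝ] ℝ} {U'' : E → E →L[ℝ] E →L[ℝ] ℝ} {c : ℝ} {f : E → ℝ}
  {L : ℝ}

/-- centred bounded Lipschitz case with the loss `θ`. -/
theorem bl_core_theta (μ : Measure E) [μ.IsAddHaarMeasure] (hc : 0 < c)
    (hU : ∀ x, HasFDerivAt U (U' x) x)
    (hU' : ∀ x, HasFDerivAt U' (U'' x) x) (hU''c : Continuous U'')
    (hconv : ∀ x z, c * ‖z‖ ^ 2 ≤ U'' x z z) [IsProbabilityMeasure (blMeas μ U)]
    {f' : E → E →L[ℝ] ℝ} (hf : ∀ x, HasFDerivAt f (f' x) x)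
    (hL : ∀ x y, |f x - f y| ≤ L * ‖x - y‖) {M : ℝ} (hM : ∀ x, |f x| ≤ M)
    (hf0 : ∫ x, f x ∂(blMeas μ U) = 0)
    {R : E → ℝ} (hR0 : ∀ x, 0 ≤ R x) (hR : ∀ x z, (f' x z) ^ 2 ≤ U'' x z z * R x)
    (hRi : Integrable R (blMeas μ U)) {θ : ℝ} (hθ0 : 0 < θ) (hθ1 : θ < 1) :
    ∫ x, f x ^ 2 ∂(blMeas μ U) ≤ (∫ x, R x ∂(blMeas μ U)) / (1 - θ) + θ * c / 2 := by
  have hUc : Continuous U := continuous_iff_continuousAt.2 fun x => (hU x).continuousAt
  have hfc : Continuous f := continuous_iff_continuousAt.2 fun x => (hf x).continuousAt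
  have hUm : Measurable U := hUc.measurable
  have hfm : Measurable f := hfc.measurable
  have h1θ : 0 < 1 - θ := by linarith
  let s : ℕ → ℝ := fun n => 1 / ((n : ℝ) + 1)
  have hs : ∀ n, 0 < s n := fun n => by positivity
  have hs0 : Tendsto s atTop (𝓝 0) := tendsto_one_div_add_atTop_nhds_zero_nat
  have hs0' : Tendsto s atTop (𝓝[>] 0) :=
    tendsto_nhdsWithin_iff.2 ⟨hs0, Eventually.of_forall hs⟩
  have hTi : Integrable (fun x => R x / (2 * (1 - θ)) + θ * c / 4) (blMeas μ U) :=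
    (hRi.div_const _).add (integrable_const _)
  have key := bl_extract (blMeas μ U) hfm hM hf0 (B := L ^ 2 / (2 * c))
    (κ := fun n => blK U f (s n)) (s := s)
    (fun n => blK_measurable hc hU hU' hconv hL hfc (hs n).le) hs hs0
    (fun n x => blK_nonneg hc hU hU' hconv hL (hs n).le x)
    (fun n x => blK_le hc hU hU' hconv hL (hs n).le x) hTi
    (fun x => hs0'.eventually (blK_local hc hU hU' hU''c hconv hL (hf x) (hR0 x) (hR x) hθ0 hθ1))
    ?_
  · rw [integral_add (hRi.div_const _) (integrable_const _), integral_div] at key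
    simp only [integral_const, probReal_univ, smul_eq_mul, one_mul] at key
    have e : 2 * ((∫ x, R x ∂(blMeas μ U)) / (2 * (1 - θ)) + θ * c / 4)
        = (∫ x, R x ∂(blMeas μ U)) / (1 - θ) + θ * c / 2 := by
      field_simp; ring
    rw [e] at key
    exact key
  · intro n
    have hκm := blK_measurable hc hU hU' hconv hL hfc (hs n).le
    have ibd : ∀ g : E → ℝ, Measurable g → ∀ b : ℝ, (∀ x, g x ≤ b) →
        Integrable (fun x => Real.exp (g x)) (blMeas μ U) := by
      intro g hg b hb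
      exact Integrable.of_bound (by fun_prop) (Real.exp b) (Eventually.of_forall fun x => by
        rw [Real.norm_eq_abs, abs_of_pos (Real.exp_pos _)]
        exact Real.exp_le_exp.2 (hb x))
    have conv : ∀ g : E → ℝ, (fun x => Real.exp (- U x) * Real.exp (g x))
        = fun x => Real.exp (- (U x - g x)) := by
      intro g; funext x; rw [← Real.exp_add]; congr 1; ring
    have i1 := (blMeas_integrable (μ := μ) hUm _).1
      (ibd (fun x => - (s n * f x)) (by fun_prop) (s n * M) (fun x => by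
        have := (abs_le.1 (hM x)).1
        nlinarith [hs n]))
    have i2 := (blMeas_integrable (μ := μ) hUm _).1
      (ibd (fun x => s n * f x) (by fun_prop) (s n * M) (fun x => by
        have := (abs_le.1 (hM x)).2
        nlinarith [hs n]))
    have i3 := (blMeas_integrable (μ := μ) hUm _).1
      (ibd (fun x => blK U f (s n) x) hκm _ (fun x => blK_le hc hU hU' hconv hL (hs n).le x))
    rw [conv] at i1 i2 i3
    rw [blMeas_integral hUm, blMeas_integral hUm, blMeas_integral hUm, conv, conv, conv]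
    apply bl_pl_half (plProp_addHaar μ) (by fun_prop) (by fun_prop) (by fun_prop) _ i1 i2 i3
    intro m w
    have := le_ciSup (blF_bddAbove hc hU hU' hconv hL (hs n).le m) w
    change blF U f (s n) m w ≤ blK U f (s n) m at this
    unfold blF at this
    linarith

/-- **Brascamp–Lieb**, bounded Lipschitz differentiable test functions. -/
theorem bl_core (μ : Measure E) [μ.IsAddHaarMeasure] (hc : 0 < c)
    (hU : ∀ x, HasFDerivAt U (U' x) x)
    (hU' : ∀ x, HasFDerivAt U' (U'' x) x) (hU''c : Continuous U'')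
    (hconv : ∀ x z, c * ‖z‖ ^ 2 ≤ U'' x z z) [IsProbabilityMeasure (blMeas μ U)]
    {f' : E → E →L[ℝ] ℝ} (hf : ∀ x, HasFDerivAt f (f' x) x)
    (hL : ∀ x y, |f x - f y| ≤ L * ‖x - y‖) {M : ℝ} (hM : ∀ x, |f x| ≤ M)
    {R : E → ℝ} (hR0 : ∀ x, 0 ≤ R x) (hR : ∀ x z, (f' x z) ^ 2 ≤ U'' x z z * R x)
    (hRi : Integrable R (blMeas μ U)) :
    ∫ x, f x ^ 2 ∂(blMeas μ U) - (∫ x, f x ∂(blMeas μ U)) ^ 2 ≤ ∫ x, R x ∂(blMeas μ U) := by
  have hfc : Continuous f := continuous_iff_continuousAt.2 fun x => (hf x).continuousAt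
  have hfm : Measurable f := hfc.measurable
  set ν := blMeas μ U with hν
  set e := ∫ x, f x ∂ν with he
  have i1 : Integrable f ν := Integrable.of_bound hfm.aestronglyMeasurable M
    (Eventually.of_forall fun x => by simpa using hM x)
  have i2 : Integrable (fun x => f x ^ 2) ν := Integrable.of_bound
    (hfm.pow_const 2).aestronglyMeasurable (M ^ 2)
    (Eventually.of_forall fun x => by
      rw [Real.norm_eq_abs, abs_pow]
      exact pow_le_pow_left₀ (abs_nonneg _) (hM x) 2)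
  have z0 : ∫ x, (f x - e) ∂ν = 0 := by
    rw [integral_sub i1 (integrable_const _)]
    simp [he]
  have z2 : ∫ x, (f x - e) ^ 2 ∂ν = ∫ x, f x ^ 2 ∂ν - e ^ 2 := by
    have : (fun x => (f x - e) ^ 2) = fun x => f x ^ 2 - 2 * e * f x + e ^ 2 := by
      funext x; ring
    have j1 : Integrable (fun x => f x ^ 2 - 2 * e * f x) ν := i2.sub (i1.const_mul _)
    rw [this, integral_add j1 (integrable_const _),
      integral_sub i2 (i1.const_mul _), integral_const_mul]
    simp only [integral_const, probReal_univ, smul_eq_mul, one_mul]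
    rw [← he]; ring
  rw [← z2]
  set V := ∫ x, (f x - e) ^ 2 ∂ν with hV
  set r := ∫ x, R x ∂ν with hr
  have key : ∀ θ : ℝ, 0 < θ → θ < 1 → (1 - θ) * V ≤ r + (1 - θ) * (θ * c / 2) := by
    intro θ h0 h1
    have h := bl_core_theta (f := fun x => f x - e) (L := L) (M := M + |e|) μ hc hU hU' hU''c hconv
      (fun x => (hf x).sub_const e) (fun x y => by simpa using hL x y)
      (fun x => (abs_sub _ _).trans (by gcongr; exact hM x)) z0 hR0 hR hRi h0 h1
    have h1θ : 0 < 1 - θ := by linarith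
    have := mul_le_mul_of_nonneg_left h h1θ.le
    rw [mul_add, mul_div_cancel₀ _ h1θ.ne'] at this
    exact this
  have t1 : Tendsto (fun θ : ℝ => (1 - θ) * V) (𝓝[>] 0) (𝓝 V) := by
    have : Continuous fun θ : ℝ => (1 - θ) * V := by fun_prop
    simpa using (this.tendsto 0).mono_left nhdsWithin_le_nhds
  have t2 : Tendsto (fun θ : ℝ => r + (1 - θ) * (θ * c / 2)) (𝓝[>] 0) (𝓝 r) := by
    have : Continuous fun θ : ℝ => r + (1 - θ) * (θ * c / 2) := by fun_prop
    simpa using (this.tendsto 0).mono_left nhdsWithin_le_nhds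
  refine le_of_tendsto_of_tendsto t1 t2 ?_
  filter_upwards [Ioo_mem_nhdsGT (zero_lt_one' ℝ)] with θ hθ
  exact key θ hθ.1 hθ.2

end core

section general

variable {E : Type*} [NormedAddCommGroup E] [NormedSpace ℝ E] [FiniteDimensional ℝ E]

theorem bl_cutoff_exists (E : Type*) [NormedAddCommGroup E] [NormedSpace ℝ E]
    [FiniteDimensional ℝ E] : ∃ (χ : E → ℝ) (χ' : E → E →L[ℝ] ℝ) (C : ℝ),
    (∀ x, HasFDerivAt χ (χ' x) x) ∧ Continuous χ' ∧ HasCompactSupport χ ∧
    (∀ x, 0 ≤ χ x) ∧ (∀ x, χ x ≤ 1) ∧ (∀ x, ‖x‖ ≤ 1 → χ x = 1) ∧ ∀ x, ‖χ' x‖ ≤ C := by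
  let φ : ContDiffBump (0 : E) := ⟨1, 2, one_pos, one_lt_two⟩
  have hcd : ContDiff ℝ 1 φ := φ.contDiff
  have hc' : Continuous (fderiv ℝ φ) := hcd.continuous_fderiv one_ne_zero
  obtain ⟨C, hC⟩ := hc'.bounded_above_of_compact_support (φ.hasCompactSupport.fderiv ℝ)
  refine ⟨φ, fderiv ℝ φ, C, fun x => (hcd.differentiable one_ne_zero x).hasFDerivAt, hc',
    φ.hasCompactSupport, fun x => φ.nonneg, fun x => φ.le_one, fun x hx => ?_, hC⟩
  apply φ.one_of_mem_closedBall
  simpa using hx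

theorem bl_sq_add_le {p q a : ℝ} (ha : 0 < a) :
    (p + q) ^ 2 ≤ (1 + a) * p ^ 2 + (1 + 1 / a) * q ^ 2 := by
  have h : 0 ≤ (a * p - q) ^ 2 / a := by positivity
  have e : (1 + a) * p ^ 2 + (1 + 1 / a) * q ^ 2 - (p + q) ^ 2 = (a * p - q) ^ 2 / a := by
    field_simp; ring
  linarith

variable [MeasurableSpace E] [BorelSpace E]
variable {U : E → ℝ} {U' : E → E →L[ℝ] ℝ} {U'' : E → E →L[ℝ] E →L[ℝ] ℝ} {c : ℝ} {f : E → ℝ}

/-- **Brascamp–Lieb variance inequality** (probability normalisation). -/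
theorem bl_variance (μ : Measure E) [μ.IsAddHaarMeasure] (hc : 0 < c)
    (hU : ∀ x, HasFDerivAt U (U' x) x)
    (hU' : ∀ x, HasFDerivAt U' (U'' x) x) (hU''c : Continuous U'')
    (hconv : ∀ x z, c * ‖z‖ ^ 2 ≤ U'' x z z) [IsProbabilityMeasure (blMeas μ U)]
    {f' : E → E →L[ℝ] ℝ} (hf : ∀ x, HasFDerivAt f (f' x) x) (hf'c : Continuous f')
    {R : E → ℝ} (hR0 : ∀ x, 0 ≤ R x) (hR : ∀ x z, (f' x z) ^ 2 ≤ U'' x z z * R x)
    (hRi : Integrable R (blMeas μ U)) (hf2 : Integrable (fun x => f x ^ 2) (blMeas μ U)) :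
    ∫ x, f x ^ 2 ∂(blMeas μ U) - (∫ x, f x ∂(blMeas μ U)) ^ 2 ≤ ∫ x, R x ∂(blMeas μ U) := by
  have hfc : Continuous f := continuous_iff_continuousAt.2 fun x => (hf x).continuousAt
  set ν := blMeas μ U with hν
  obtain ⟨χ, χ', C, hχ, hχ'c, hχs, hχ0, hχ1, hχone, hC⟩ := bl_cutoff_exists E
  have hχc : Continuous χ := continuous_iff_continuousAt.2 fun x => (hχ x).continuousAt
  have hC0 : 0 ≤ C := (norm_nonneg _).trans (hC 0)
  have hf1 : Integrable f ν := by
    refine Integrable.mono' ((integrable_const 1).add hf2) hfc.aestronglyMeasurable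
      (Eventually.of_forall fun x => ?_)
    rw [Real.norm_eq_abs, Pi.add_apply]
    nlinarith [sq_abs (f x), sq_nonneg (|f x| - 1)]
  let a : ℕ → ℝ := fun k => 1 / ((k : ℝ) + 1)
  have ha : ∀ k, 0 < a k := fun k => by positivity
  have ha0 : Tendsto a atTop (𝓝 0) := tendsto_one_div_add_atTop_nhds_zero_nat
  let g : ℕ → E → ℝ := fun k x => χ (a k • x) * f x
  let g' : ℕ → E → E →L[ℝ] ℝ := fun k x => χ (a k • x) • f' x + f x • (a k • χ' (a k • x))
  have hg : ∀ k x, HasFDerivAt (g k) (g' k x) x := by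
    intro k x
    have h1 : HasFDerivAt (fun x => χ (a k • x)) (a k • χ' (a k • x)) x := by
      have := (hχ (a k • x)).comp x ((hasFDerivAt_id x).const_smul (a k))
      refine this.congr_fderiv ?_
      ext z
      simp
    exact h1.mul (hf x)
  have hg'c : ∀ k, Continuous (g' k) := by
    intro k
    simp only [g']
    fun_prop
  have hgc : ∀ k, Continuous (g k) := fun k =>
    continuous_iff_continuousAt.2 fun x => (hg k x).continuousAt
  have hgs : ∀ k, HasCompactSupport (g k) := fun k =>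
    (hχs.comp_smul (ha k).ne').mul_right
  have hgabs : ∀ k x, |g k x| ≤ |f x| := by
    intro k x
    simp only [g]
    rw [abs_mul, abs_of_nonneg (hχ0 _)]
    exact mul_le_of_le_one_left (abs_nonneg _) (hχ1 _)
  have hgev : ∀ x, ∀ᶠ k in atTop, g k x = f x := by
    intro x
    have t : Tendsto (fun k => a k * ‖x‖) atTop (𝓝 0) := by simpa using ha0.mul_const ‖x‖
    filter_upwards [t.eventually (Iic_mem_nhds (by norm_num : (0:ℝ) < 1))] with k hk
    simp only [g]
    rw [hχone _ (by rw [norm_smul, Real.norm_eq_abs, abs_of_pos (ha k)]; exact hk), one_mul]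
  -- the inequality for each k
  have key : ∀ k, ∫ x, g k x ^ 2 ∂ν - (∫ x, g k x ∂ν) ^ 2
      ≤ (1 + a k) * (∫ x, R x ∂ν) + (a k ^ 2 + a k) * (C ^ 2 / c) * ∫ x, f x ^ 2 ∂ν := by
    intro k
    obtain ⟨M, hM⟩ := (hgc k).bounded_above_of_compact_support (hgs k)
    have hfd : fderiv ℝ (g k) = g' k := funext fun x => (hg k x).fderiv
    obtain ⟨L, hL⟩ := (hg'c k).bounded_above_of_compact_support (hfd ▸ (hgs k).fderiv ℝ)
    have hLip : ∀ x y, |g k x - g k y| ≤ L * ‖x - y‖ := by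
      intro x y
      exact (convex_univ).norm_image_sub_le_of_norm_hasFDerivWithin_le
        (fun x _ => (hg k x).hasFDerivWithinAt) (fun x _ => hL x) (mem_univ y) (mem_univ x)
    have hRk : ∀ x z, (g' k x z) ^ 2
        ≤ U'' x z z * ((1 + a k) * R x + (a k ^ 2 + a k) * (C ^ 2 / c) * f x ^ 2) := by
      intro x z
      have hQ := hconv x z
      have hQ0 : 0 ≤ U'' x z z := le_trans (by positivity) hQ
      have e : g' k x z = χ (a k • x) * f' x z + f x * (a k * χ' (a k • x) z) := by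
        simp [g']
      rw [e]
      refine (bl_sq_add_le (ha k)).trans ?_
      have h1 : (χ (a k • x) * f' x z) ^ 2 ≤ U'' x z z * R x := by
        rw [mul_pow]
        have : χ (a k • x) ^ 2 ≤ 1 := pow_le_one₀ (hχ0 _) (hχ1 _)
        calc χ (a k • x) ^ 2 * f' x z ^ 2 ≤ 1 * f' x z ^ 2 := by gcongr
          _ ≤ _ := by rw [one_mul]; exact hR x z
      have h2 : (χ' (a k • x) z) ^ 2 ≤ C ^ 2 * (U'' x z z / c) := by
        have h3 : |χ' (a k • x) z| ≤ C * ‖z‖ :=
          ((χ' (a k • x)).le_opNorm z).trans (by gcongr; exact hC _)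
        have h4 : (χ' (a k • x) z) ^ 2 ≤ (C * ‖z‖) ^ 2 := by
          rw [← sq_abs]; exact pow_le_pow_left₀ (abs_nonneg _) h3 2
        have h5 : ‖z‖ ^ 2 ≤ U'' x z z / c := by rw [le_div_iff₀ hc]; linarith
        calc (χ' (a k • x) z) ^ 2 ≤ (C * ‖z‖) ^ 2 := h4
          _ = C ^ 2 * ‖z‖ ^ 2 := by ring
          _ ≤ _ := by gcongr
      have h6 : (f x * (a k * χ' (a k • x) z)) ^ 2
          ≤ f x ^ 2 * a k ^ 2 * (C ^ 2 * (U'' x z z / c)) := by
        have : (f x * (a k * χ' (a k • x) z)) ^ 2 = f x ^ 2 * a k ^ 2 * (χ' (a k • x) z) ^ 2 := by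
          ring
        rw [this]; gcongr
      have hak := ha k
      calc (1 + a k) * (χ (a k • x) * f' x z) ^ 2 + (1 + 1 / a k) * (f x * (a k * χ' (a k • x) z)) ^ 2
          ≤ (1 + a k) * (U'' x z z * R x)
            + (1 + 1 / a k) * (f x ^ 2 * a k ^ 2 * (C ^ 2 * (U'' x z z / c))) := by gcongr
        _ = _ := by field_simp
    have hRki : Integrable (fun x => (1 + a k) * R x + (a k ^ 2 + a k) * (C ^ 2 / c) * f x ^ 2) ν :=
      (hRi.const_mul _).add (hf2.const_mul _)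
    have := bl_core μ hc hU hU' hU''c hconv (hg k) hLip (fun x => hM x)
      (fun x => by have := hR0 x; have := ha k; positivity) hRk hRki
    rw [integral_add (hRi.const_mul _) (hf2.const_mul _), integral_const_mul,
      integral_const_mul] at this
    exact this
  -- limits
  have l1 : Tendsto (fun k => ∫ x, g k x ∂ν) atTop (𝓝 (∫ x, f x ∂ν)) := by
    apply tendsto_integral_of_dominated_convergence (fun x => |f x|)
    · exact fun k => (hgc k).aestronglyMeasurable
    · exact hf1.abs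
    · exact fun k => Eventually.of_forall fun x => hgabs k x
    · refine Eventually.of_forall fun x => ?_
      exact tendsto_const_nhds.congr' ((hgev x).mono fun k hk => hk.symm)
  have l2 : Tendsto (fun k => ∫ x, g k x ^ 2 ∂ν) atTop (𝓝 (∫ x, f x ^ 2 ∂ν)) := by
    apply tendsto_integral_of_dominated_convergence (fun x => f x ^ 2)
    · exact fun k => ((hgc k).pow 2).aestronglyMeasurable
    · exact hf2
    · refine fun k => Eventually.of_forall fun x => ?_
      rw [Real.norm_eq_abs, abs_pow, ← sq_abs (f x)]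
      exact pow_le_pow_left₀ (abs_nonneg _) (hgabs k x) 2
    · refine Eventually.of_forall fun x => ?_
      exact tendsto_const_nhds.congr' ((hgev x).mono fun k hk => by simp only [hk])
  have l3 : Tendsto (fun k => (1 + a k) * (∫ x, R x ∂ν)
      + (a k ^ 2 + a k) * (C ^ 2 / c) * ∫ x, f x ^ 2 ∂ν) atTop (𝓝 (∫ x, R x ∂ν)) := by
    have := ((tendsto_const_nhds (x := (1:ℝ))).add ha0).mul_const (∫ x, R x ∂ν)
    have h2 := ((((ha0.pow 2).add ha0).mul_const (C ^ 2 / c))).mul_const (∫ x, f x ^ 2 ∂ν)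
    simpa using this.add h2
  exact le_of_tendsto_of_tendsto (l2.sub (l1.pow 2)) l3 (Eventually.of_forall key)

end general

section forms

variable {E : Type*} [NormedAddCommGroup E] [NormedSpace ℝ E] [FiniteDimensional ℝ E]
variable [MeasurableSpace E] [BorelSpace E]
variable {U : E → ℝ} {U' : E → E →L[ℝ] ℝ} {U'' : E → E →L[ℝ] E →L[ℝ] ℝ} {c : ℝ} {f : E → ℝ}

omit [NormedAddCommGroup E] [NormedSpace ℝ E] [FiniteDimensional ℝ E] [BorelSpace E] in
theorem blMeas_isProbabilityMeasure {μ : Measure E} (h : Integrable (fun x => Real.exp (- U x)) μ)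
    (h1 : ∫ x, Real.exp (- U x) ∂μ = 1) : IsProbabilityMeasure (blMeas μ U) := by
  constructor
  unfold blMeas
  rw [withDensity_apply _ MeasurableSet.univ, Measure.restrict_univ,
    ← ofReal_integral_eq_lintegral_ofReal h (Eventually.of_forall fun _ => (Real.exp_pos _).le), h1]
  simp

/-- **Brascamp–Lieb variance inequality**, unnormalised form. -/
theorem bl_variance_unnorm (μ : Measure E) [μ.IsAddHaarMeasure] (hc : 0 < c)
    (hU : ∀ x, HasFDerivAt U (U' x) x)
    (hU' : ∀ x, HasFDerivAt U' (U'' x) x) (hU''c : Continuous U'')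
    (hconv : ∀ x z, c * ‖z‖ ^ 2 ≤ U'' x z z) (hint : Integrable (fun x => Real.exp (- U x)) μ)
    {f' : E → E →L[ℝ] ℝ} (hf : ∀ x, HasFDerivAt f (f' x) x) (hf'c : Continuous f')
    {R : E → ℝ} (hR0 : ∀ x, 0 ≤ R x) (hR : ∀ x z, (f' x z) ^ 2 ≤ U'' x z z * R x)
    (hRi : Integrable (fun x => Real.exp (- U x) * R x) μ)
    (hf2 : Integrable (fun x => Real.exp (- U x) * f x ^ 2) μ) :
    (∫ x, Real.exp (- U x) * f x ^ 2 ∂μ) * (∫ x, Real.exp (- U x) ∂μ)
      - (∫ x, Real.exp (- U x) * f x ∂μ) ^ 2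
      ≤ (∫ x, Real.exp (- U x) * R x ∂μ) * (∫ x, Real.exp (- U x) ∂μ) := by
  have hUc : Continuous U := continuous_iff_continuousAt.2 fun x => (hU x).continuousAt
  set Z := ∫ x, Real.exp (- U x) ∂μ with hZ
  have hZ0 : 0 < Z := integral_exp_pos hint
  let V : E → ℝ := fun x => U x + Real.log Z
  have hVm : Measurable V := (hUc.add continuous_const).measurable
  have eV : ∀ x, Real.exp (- V x) = Z⁻¹ * Real.exp (- U x) := by
    intro x
    simp only [V]
    rw [neg_add, Real.exp_add, Real.exp_neg (Real.log Z), Real.exp_log hZ0, mul_comm]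
  have eVf : (fun x => Real.exp (- V x)) = fun x => Z⁻¹ * Real.exp (- U x) := funext eV
  have hVint : Integrable (fun x => Real.exp (- V x)) μ := by rw [eVf]; exact hint.const_mul _
  have hV1 : ∫ x, Real.exp (- V x) ∂μ = 1 := by
    rw [eVf, integral_const_mul, ← hZ, inv_mul_cancel₀ hZ0.ne']
  have := blMeas_isProbabilityMeasure hVint hV1
  have cv : ∀ g : E → ℝ, (fun x => Real.exp (- V x) * g x)
      = fun x => Z⁻¹ * (Real.exp (- U x) * g x) := by
    intro g; funext x; rw [eV, mul_assoc]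
  have ci : ∀ g : E → ℝ, ∫ x, g x ∂(blMeas μ V) = Z⁻¹ * ∫ x, Real.exp (- U x) * g x ∂μ := by
    intro g; rw [blMeas_integral hVm, cv, integral_const_mul]
  have key := bl_variance (U := V) μ hc (fun x => (hU x).add_const _) hU' hU''c hconv hf hf'c hR0 hR
    ((blMeas_integrable hVm _).2 (by rw [cv]; exact hRi.const_mul _))
    ((blMeas_integrable hVm _).2 (by rw [cv]; exact hf2.const_mul _))
  rw [ci, ci, ci] at key
  have := mul_le_mul_of_nonneg_left key (sq_nonneg Z)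
  have e1 : Z ^ 2 * (Z⁻¹ * (∫ x, Real.exp (- U x) * f x ^ 2 ∂μ)
      - (Z⁻¹ * ∫ x, Real.exp (- U x) * f x ∂μ) ^ 2)
      = (∫ x, Real.exp (- U x) * f x ^ 2 ∂μ) * Z - (∫ x, Real.exp (- U x) * f x ∂μ) ^ 2 := by
    field_simp
  have e2 : Z ^ 2 * (Z⁻¹ * ∫ x, Real.exp (- U x) * R x ∂μ)
      = (∫ x, Real.exp (- U x) * R x ∂μ) * Z := by
    field_simp
  rw [e1, e2] at this
  exact this

/-- `ProbabilityTheory.variance` form. -/
theorem bl_variance' (μ : Measure E) [μ.IsAddHaarMeasure] (hc : 0 < c)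
    (hU : ∀ x, HasFDerivAt U (U' x) x)
    (hU' : ∀ x, HasFDerivAt U' (U'' x) x) (hU''c : Continuous U'')
    (hconv : ∀ x z, c * ‖z‖ ^ 2 ≤ U'' x z z) [IsProbabilityMeasure (blMeas μ U)]
    {f' : E → E →L[ℝ] ℝ} (hf : ∀ x, HasFDerivAt f (f' x) x) (hf'c : Continuous f')
    {R : E → ℝ} (hR0 : ∀ x, 0 ≤ R x) (hR : ∀ x z, (f' x z) ^ 2 ≤ U'' x z z * R x)
    (hRi : Integrable R (blMeas μ U)) (hf2 : Integrable (fun x => f x ^ 2) (blMeas μ U)) :
    ProbabilityTheory.variance f (blMeas μ U) ≤ ∫ x, R x ∂(blMeas μ U) := by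
  have hfc : Continuous f := continuous_iff_continuousAt.2 fun x => (hf x).continuousAt
  rw [ProbabilityTheory.variance_eq_sub
    ((memLp_two_iff_integrable_sq hfc.aestronglyMeasurable).2 hf2)]
  exact bl_variance μ hc hU hU' hU''c hconv hf hf'c hR0 hR hRi hf2

end forms

end Claimed.Agent.R286.BL
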